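import Vale.Agent.P125F.A1_helper5
import Vale.Agent.P125F.GV_helper12
import Vale.Agent.P125F.B_helper25
import Vale.Agent.P125F.B0_helper18
import Vale.Agent.P125F.CH_helper26
import Vale.Agent.P125F.JC_helper22
import Vale.Agent.P125F.PW_helper23
import Vale.Agent.P125F.LAB_helper3
import Vale.Agent.P125F.FIN_helper18

/-! # Assembly of the main theorem from all pieces (A2 and CMB as hypotheses) -/

namespace P125F
open Finset P125S

theorem main_of
    (hA2 : ∀ {S : List ℝ → ℝ} {θ : ℝ}, 0 < θ → Spr S θ →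
      ∃ N : List ℤ → ℝ, Sem N θ ∧ ∀ (A : Finset (List ℤ)) (δ : ℝ), 0 < δ →
        ∃ L : ℕ, 0 < L ∧ ∀ l ∈ A, |S (blow L l) - N l| ≤ δ)
    (hCMB : ∀ (d M m n : ℕ) (_ : 1 ≤ n) (_ : 2 * n + 3 ≤ M)
      (ω : Fin (n + 1) → (Fin ((M + 1) * (2 * d)) ↪o Fin m)) (η : Fin n → Mv d)
      (_ : ∀ i, Comp d M m (ω i.castSucc) (ω i.succ) (η i))
      (_ : ∀ i j : Fin n, (j : ℕ) = i + 1 → (η j).2.1 ≠ (η i).2.2),
      Good n (M - 2 * n - 2) (List.ofFn (fun k : Fin m =>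
        ∑ i : Fin n, inc d M m (ω i.castSucc) (ω i.succ) (η i) k)))
    {X : Type} [NormedAddCommGroup X] [NormedSpace ℝ X] {p K : ℝ} (hp : 1 < p)
    (hK : 0 < K) (hX : MarkovType X p K) {θ : ℝ} (hθ : 0 < θ) : ¬ ∀ N, HasJames X θ N := by
  intro hJ
  refine fin18 (X := X) hp hK hθ
    (good_vectors_helper12 (spread5 hθ hJ) (fun S hS => hA2 hθ hS))
    (fun N hN n m M hm hM l hl => good_low_helper25 hN n m M hm hM l hl)
    (fun N hN M m t => alt_pattern18 hN M m t) ?_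
  intro n M hn hM
  obtain ⟨m, hm⟩ := chain_ineq_of
    (fun d M hd {ε} hε => jc_helper22 d M hd hε)
    (fun {V} _ d hd {ε} hε L h1 h2 n => pw_nb d hd hε L h1 h2 n)
    hCMB
    (fun {X} _ _ {p K} hp _ hX {V E} _ _ _ _ L {m} g hg y n hn =>
      lab_ineq_helper3 hp hX L g hg y n hn)
    n M hn hM
  exact ⟨m, fun y A B hA hB h1 h2 => hm X p K (by linarith) hK hX y A B hA hB h1 h2⟩

end P125F
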